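import Mathlib

/-!
The shadow formula in the model space `ℝ × ℝ × ℝ`: for a compact convex set `K` and a vector
`w = (l, 0, 0)` parallel to the first coordinate axis, the Minkowski sum of `K` with the segment
from `0` to `w` has volume `volume K + |l| * area (projection of K along the first axis)`.
-/

namespace Vale.Agent.Lib.P243.H23

open MeasureTheory Set
open scoped Pointwise

/-- A compact convex nonempty set of reals is the closed interval between its infimum and its
supremum. -/
lemma eq_Icc_of_compact_convex {F : Set ℝ} (hc : IsCompact F) (hconv : Convex ℝ F)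
    (hne : F.Nonempty) : F = Icc (sInf F) (sSup F) := by
  have hoc : F.OrdConnected := hconv.ordConnected
  apply Subset.antisymm
  · intro t ht
    exact ⟨csInf_le hc.bddBelow ht, le_csSup hc.bddAbove ht⟩
  · exact hoc.out (hc.sInf_mem hne) (hc.sSup_mem hne)

/-- The fibre of `K + [0, (l, 0)]` over `y`, for a fibre of `K` equal to `[α, β]`. -/
lemma fibre_add (α β l t : ℝ) (hαβ : α ≤ β) :
    (∃ s ∈ Icc (0 : ℝ) 1, α ≤ t - s * l ∧ t - s * l ≤ β)
      ↔ t ∈ Icc (α + min 0 l) (β + max 0 l) := by
  constructor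
  · rintro ⟨s, ⟨hs0, hs1⟩, h1, h2⟩
    have hmin : min 0 l ≤ s * l := by
      rcases le_total 0 l with hl | hl
      · rw [min_eq_left hl]; positivity
      · rw [min_eq_right hl]; nlinarith
    have hmax : s * l ≤ max 0 l := by
      rcases le_total 0 l with hl | hl
      · rw [max_eq_right hl]; nlinarith
      · rw [max_eq_left hl]; nlinarith
    constructor <;> linarith
  · rintro ⟨h1, h2⟩
    rcases le_total 0 l with hl | hl
    · rw [min_eq_left hl] at h1
      rw [max_eq_right hl] at h2
      by_cases htb : t ≤ β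
      · exact ⟨0, ⟨le_refl _, zero_le_one⟩, by linarith, by linarith⟩
      · have htb' : β < t := not_le.1 htb
        have hlpos : 0 < l := by linarith
        refine ⟨(t - β) / l, ⟨by positivity, ?_⟩, ?_, ?_⟩
        · rw [div_le_one hlpos]; linarith
        · rw [div_mul_cancel₀ _ hlpos.ne']; linarith
        · rw [div_mul_cancel₀ _ hlpos.ne']; linarith
    · rw [min_eq_right hl] at h1
      rw [max_eq_left hl] at h2
      by_cases hta : α ≤ t
      · exact ⟨0, ⟨le_refl _, zero_le_one⟩, by linarith, by linarith⟩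
      · have hta' : t < α := not_le.1 hta
        have hlneg : l < 0 := by linarith
        refine ⟨(t - α) / l, ⟨?_, ?_⟩, ?_, ?_⟩
        · exact div_nonneg_of_nonpos (by linarith) hl
        · rw [div_le_one_of_neg hlneg]; linarith
        · rw [div_mul_cancel₀ _ hlneg.ne]; linarith
        · rw [div_mul_cancel₀ _ hlneg.ne]; linarith

/-- Membership in the Minkowski sum with the segment from `0` to `(l, 0)`. -/
lemma mem_add_segment (K : Set (ℝ × ℝ × ℝ)) (l t : ℝ) (y : ℝ × ℝ) :
    (t, y) ∈ K + segment ℝ (0 : ℝ × ℝ × ℝ) ((l, (0 : ℝ × ℝ)) : ℝ × ℝ × ℝ)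
      ↔ ∃ s ∈ Icc (0 : ℝ) 1, (t - s * l, y) ∈ K := by
  rw [segment_eq_image_lineMap]
  constructor
  · rintro ⟨z, hz, _, ⟨s, hs, rfl⟩, hsum⟩
    refine ⟨s, hs, ?_⟩
    have h1 : z.1 + s * l = t := by
      have := congrArg Prod.fst hsum
      simpa [AffineMap.lineMap_apply] using this
    have h2 : z.2 = y := by
      have := congrArg Prod.snd hsum
      simpa [AffineMap.lineMap_apply] using this
    have hz' : z = (t - s * l, y) := Prod.ext (by simp; linarith) (by simpa using h2)
    rw [← hz']
    exact hz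
  · rintro ⟨s, hs, hK⟩
    refine ⟨(t - s * l, y), hK, AffineMap.lineMap 0 (l, (0 : ℝ × ℝ)) s, ⟨s, hs, rfl⟩, ?_⟩
    refine Prod.ext ?_ ?_
    · simp [AffineMap.lineMap_apply]
    · simp [AffineMap.lineMap_apply]

/-- **Shadow formula in the model.**  For a compact convex `K ⊆ ℝ × ℝ × ℝ` and a real `l`,
`volume (K + [0, (l, 0, 0)]) = volume K + |l| * volume (projection of K to the last two
coordinates)`. -/
theorem model_shadow (K : Set (ℝ × ℝ × ℝ)) (hK : IsCompact K) (hconv : Convex ℝ K) (l : ℝ) :
    volume (K + segment ℝ (0 : ℝ × ℝ × ℝ) ((l, (0 : ℝ × ℝ)) : ℝ × ℝ × ℝ))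
      = volume K + ENNReal.ofReal |l| * volume (Prod.snd '' K) := by
  set w : ℝ × ℝ × ℝ := (l, (0 : ℝ × ℝ)) with hw
  have hSc : IsCompact (K + segment ℝ (0 : ℝ × ℝ × ℝ) w) := by
    have hseg : IsCompact (segment ℝ (0 : ℝ × ℝ × ℝ) w) := by
      rw [segment_eq_image_lineMap]
      exact isCompact_Icc.image (AffineMap.lineMap_continuous)
    exact hK.add hseg
  have hKm := hK.measurableSet
  have hSm := hSc.measurableSet
  have hPc : IsCompact (Prod.snd '' K) := hK.image continuous_snd
  have hPm := hPc.measurableSet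
  rw [Measure.volume_eq_prod ℝ (ℝ × ℝ), Measure.prod_apply_symm hSm, Measure.prod_apply_symm hKm,
    ← lintegral_indicator_const hPm, ← lintegral_add_left (measurable_measure_prodMk_right hKm)]
  refine lintegral_congr fun y => ?_
  by_cases hy : y ∈ Prod.snd '' K
  · rw [indicator_of_mem hy]
    -- the fibre of `K` over `y`
    set F : Set ℝ := (fun t => (t, y)) ⁻¹' K with hF
    have hFc : IsCompact F := by
      have hcl : IsClosed F := hK.isClosed.preimage (by fun_prop)
      have hsub : F ⊆ Prod.fst '' K := fun t ht => ⟨(t, y), ht, rfl⟩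
      exact (hK.image continuous_fst).of_isClosed_subset hcl hsub
    have hFconv : Convex ℝ F := by
      intro t ht t' ht' a b ha hb hab
      have := hconv ht ht' ha hb hab
      have h2 : a • ((t, y) : ℝ × ℝ × ℝ) + b • ((t', y) : ℝ × ℝ × ℝ) = (a • t + b • t', y) := by
        refine Prod.ext rfl ?_
        show a • y + b • y = y
        rw [← add_smul, hab, one_smul]
      rw [h2] at this
      exact this
    have hFne : F.Nonempty := by
      obtain ⟨z, hz, rfl⟩ := hy
      exact ⟨z.1, hz⟩
    have hFeq := eq_Icc_of_compact_convex hFc hFconv hFne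
    set α := sInf F
    set β := sSup F
    have hαβ : α ≤ β := by
      obtain ⟨t, ht⟩ := hFne
      rw [hFeq] at ht
      exact ht.1.trans ht.2
    have hfib : (fun t => (t, y)) ⁻¹' (K + segment ℝ (0 : ℝ × ℝ × ℝ) w)
        = Icc (α + min 0 l) (β + max 0 l) := by
      ext t
      rw [mem_preimage, hw, mem_add_segment, ← fibre_add α β l t hαβ]
      refine exists_congr fun s => and_congr_right fun _ => ?_
      show (t - s * l) ∈ F ↔ _
      rw [hFeq]
      rfl
    rw [hfib, hFeq, Real.volume_Icc, Real.volume_Icc, ← ENNReal.ofReal_add (by linarith)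
      (abs_nonneg l)]
    congr 1
    rcases le_total 0 l with hl | hl
    · rw [min_eq_left hl, max_eq_right hl, abs_of_nonneg hl]; ring
    · rw [min_eq_right hl, max_eq_left hl, abs_of_nonpos hl]; ring
  · rw [indicator_of_notMem hy, add_zero]
    have hF0 : (fun t => (t, y)) ⁻¹' K = ∅ := by
      ext t
      simp only [mem_preimage, mem_empty_iff_false, iff_false]
      intro h
      exact hy ⟨(t, y), h, rfl⟩
    have hS0 : (fun t => (t, y)) ⁻¹' (K + segment ℝ (0 : ℝ × ℝ × ℝ) w) = ∅ := by
      ext t
      simp only [mem_preimage, mem_empty_iff_false, iff_false]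
      rw [hw, mem_add_segment]
      rintro ⟨s, -, h⟩
      exact hy ⟨_, h, rfl⟩
    rw [hF0, hS0]

end Vale.Agent.Lib.P243.H23
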