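import Mathlib
import Vale.Agent.Lib.P243.Transfer
import Vale.Agent.Lib.P243.R3.Defs
import Vale.Agent.Lib.P243.helper23.Shadow

/-!
The shadow formula in Euclidean 3-space: for a compact convex set `K`, an orthonormal pair
`(a, b)` and a vector `w` orthogonal to `a` and `b`,
`volume (K + [0, w]) = volume K + ‖w‖ * volume (planeCoords a b '' K)`, hence
`Ahat K w = ‖w‖ * area of the projection of K along w`.
-/

namespace Vale.Agent.Lib.P243.H23

open MeasureTheory Set
open scoped Pointwise RealInnerProductSpace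

/-- Coordinates of Euclidean 3-space in an orthonormal basis, with the third basis vector
first. -/
noncomputable def coordEquiv (c : OrthonormalBasis (Fin 3) ℝ E3) : E3 ≃ᵐ ℝ × ℝ × ℝ :=
  c.measurableEquiv.trans
    ((MeasurableEquiv.toLp 2 (Fin 3 → ℝ)).symm.trans
      ((MeasurableEquiv.piFinSuccAbove (fun _ : Fin 3 => ℝ) 2).trans
        (MeasurableEquiv.prodCongr (MeasurableEquiv.refl ℝ) MeasurableEquiv.finTwoArrow)))

lemma coordEquiv_apply (c : OrthonormalBasis (Fin 3) ℝ E3) (x : E3) :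
    coordEquiv c x = (⟪c 2, x⟫, (⟪c 0, x⟫, ⟪c 1, x⟫)) := by
  change ((c.repr x).ofLp 2, ((c.repr x).ofLp ((2 : Fin 3).succAbove 0),
    (c.repr x).ofLp ((2 : Fin 3).succAbove 1))) = _
  rw [c.repr_apply_apply]
  have h0 : (2 : Fin 3).succAbove 0 = 0 := by decide
  have h1 : (2 : Fin 3).succAbove 1 = 1 := by decide
  rw [h0, h1, c.repr_apply_apply, c.repr_apply_apply]

lemma measurePreserving_coordEquiv (c : OrthonormalBasis (Fin 3) ℝ E3) :
    MeasurePreserving (coordEquiv c) volume volume := by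
  refine c.measurePreserving_measurableEquiv.trans
    ((EuclideanSpace.volume_preserving_symm_measurableEquiv_toLp (Fin 3)).trans
      ((volume_preserving_piFinSuccAbove (fun _ : Fin 3 => ℝ) 2).trans ?_))
  exact (MeasurePreserving.id volume).prod (volume_preserving_finTwoArrow ℝ)

/-- The coordinate map as a linear map. -/
noncomputable def coordL (c : OrthonormalBasis (Fin 3) ℝ E3) : E3 →ₗ[ℝ] ℝ × ℝ × ℝ :=
  (innerₛₗ ℝ (c 2)).prod ((innerₛₗ ℝ (c 0)).prod (innerₛₗ ℝ (c 1)))

lemma coordL_apply (c : OrthonormalBasis (Fin 3) ℝ E3) (x : E3) :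
    coordL c x = (⟪c 2, x⟫, (⟪c 0, x⟫, ⟪c 1, x⟫)) := rfl

lemma coordL_eq (c : OrthonormalBasis (Fin 3) ℝ E3) : ⇑(coordL c) = ⇑(coordEquiv c) := by
  funext x
  rw [coordL_apply, coordEquiv_apply]

lemma volume_coordL_image (c : OrthonormalBasis (Fin 3) ℝ E3) (S : Set E3) :
    volume (coordL c '' S) = volume S := by
  rw [coordL_eq, MeasurableEquiv.image_eq_preimage_symm]
  exact (MeasurePreserving.symm (coordEquiv c)
    (measurePreserving_coordEquiv c)).measure_preimage_equiv S

/-- **Shadow formula.** -/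
theorem shadow_formula (K : Set E3) (hK : IsCompact K) (hconv : Convex ℝ K) (a b w : E3)
    (hab : OrthoPair a b) (hwa : ⟪w, a⟫ = 0) (hwb : ⟪w, b⟫ = 0) :
    volume (K + segment ℝ (0 : E3) w)
      = volume K + ENNReal.ofReal ‖w‖ * volume (planeCoords a b '' K) := by
  obtain ⟨ha1, hb1, hab0⟩ := hab
  have hba : ⟪b, a⟫ = 0 := by rw [real_inner_comm]; exact hab0
  obtain ⟨c, hc0, hc1⟩ := exists_basis_three finrank_E3 a b ha1 hb1 hba
  set l : ℝ := ⟪c 2, w⟫ with hl
  have hcw : coordL c w = (l, ((0 : ℝ), (0 : ℝ))) := by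
    rw [coordL_apply, hc0, hc1, real_inner_comm w a, hwa, real_inner_comm w b, hwb]
  have habs : |l| = ‖w‖ := by
    have h := c.sum_sq_inner_right w
    rw [Fin.sum_univ_three, hc0, hc1, real_inner_comm w a, hwa, real_inner_comm w b, hwb] at h
    have h2 : l ^ 2 = ‖w‖ ^ 2 := by rw [hl]; linarith
    have h3 : |l| = |‖w‖| := (sq_eq_sq_iff_abs_eq_abs l ‖w‖).1 h2
    rw [h3, abs_norm]
  set K' : Set (ℝ × ℝ × ℝ) := coordL c '' K with hK'
  have hK'c : IsCompact K' := hK.image (LinearMap.continuous_of_finiteDimensional _)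
  have hK'conv : Convex ℝ K' := hconv.linear_image (coordL c)
  have himg : coordL c '' (K + segment ℝ (0 : E3) w)
      = K' + segment ℝ (0 : ℝ × ℝ × ℝ) ((l, (0 : ℝ × ℝ)) : ℝ × ℝ × ℝ) := by
    rw [Set.image_add, ← hK']
    congr 1
    have := image_segment ℝ (coordL c).toAffineMap (0 : E3) w
    simp only [LinearMap.coe_toAffineMap, map_zero] at this
    rw [this, hcw]
    rfl
  have hproj : Prod.snd '' K' = planeCoords a b '' K := by
    rw [hK', Set.image_image]
    refine Set.image_congr fun x _ => ?_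
    rw [coordL_apply, hc0, hc1]
    unfold planeCoords
    rw [real_inner_comm a, real_inner_comm b]
  rw [← volume_coordL_image c (K + segment ℝ (0 : E3) w), himg,
    model_shadow K' hK'c hK'conv l, habs, hproj, hK', volume_coordL_image]

/-- `Ahat K w` is `‖w‖` times the area of the projection of `K` along `w`. -/
theorem Ahat_eq (K : Set E3) (hK : IsCompact K) (hconv : Convex ℝ K) (a b w : E3)
    (hab : OrthoPair a b) (hwa : ⟪w, a⟫ = 0) (hwb : ⟪w, b⟫ = 0) :
    R3.Ahat K w = ‖w‖ * (volume (planeCoords a b '' K)).toReal := by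
  have hcont : Continuous (planeCoords a b) := by
    unfold planeCoords
    fun_prop
  have hPfin : volume (planeCoords a b '' K) ≠ ⊤ := (hK.image hcont).measure_lt_top.ne
  have hKfin : volume K ≠ ⊤ := hK.measure_lt_top.ne
  unfold R3.Ahat
  rw [shadow_formula K hK hconv a b w hab hwa hwb,
    ENNReal.toReal_add hKfin (ENNReal.mul_ne_top ENNReal.ofReal_ne_top hPfin),
    ENNReal.toReal_mul, ENNReal.toReal_ofReal (norm_nonneg w)]
  ring

end Vale.Agent.Lib.P243.H23
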